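import Vale.Agent.P284.H913.CY.L3
import Vale.Agent.P284.H730.CY.Spec

/-!
# P284, theorem CY, row L3: the literal statement
-/

set_option maxSynthPendingDepth 3

namespace Vale.Agent.P284.H913.CY

open Vale.Agent.P284.H730.CY

/-- `1 - L` is onto (without `OYStmt`) -/
theorem linStmt (hS : SStmt) (h2 : L2Concl) : LinStmt := by
  intro n Γ _ C _ α h0 h1 L a hE f
  haveI := (hS n Γ C α h0).1
  haveI := (hS n Γ C α h0).2
  obtain ⟨Λ, hΛ, hs⟩ := h2 n Γ C α h0 h1 L a hE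
  obtain ⟨v, hv⟩ := (bijective h0 h1 hE Λ hΛ (fun f => hs f) 1 one_pos).2 f
  refine ⟨v, ?_⟩
  have hv' : (1 : ℝ) • inc C α v - L v = f := hv
  rwa [one_smul] at hv'

/-- **L3** -/
theorem l3Stmt : L3Stmt := fun hS _ h2 => linStmt hS h2

end Vale.Agent.P284.H913.CY
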