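import Vale.Agent.P284.H730.CY.Defs
import Vale.Agent.P272.K.MP.Descent
import Vale.Agent.P272.K.MP.Local

/-!
# P284, theorem CY, row L3: maximum principle, interpolation, descent of the spectral parameter
-/

open scoped Manifold ContDiff Topology NNReal ComplexOrder
open Filter Set Metric MeasureTheory

set_option maxSynthPendingDepth 3

noncomputable section

namespace Vale.Agent.P284.H913.CY

open Vale.Agent.P272.K Vale.Agent.P272.K.LIN Vale.Agent.P272.K.N Vale.Agent.P284.H248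
  Vale.Agent.P284.H894 Vale.Agent.P284.H894.G Vale.Agent.P284.H894.V Vale.Agent.P284.H409.K
  Vale.Agent.P284.H730.CY

/-! ### The square of the Euclidean norm -/

section sq
variable {n : ℕ}

/-- real and imaginary part of the coordinate number `j` -/
def rj (j : Fin n) : Cm n →L[ℝ] ℝ :=
  Complex.reCLM.comp (ContinuousLinearMap.proj (R := ℝ) (φ := fun _ : Fin n => ℂ) j)

/-- imaginary part of the coordinate number `j` -/
def ij (j : Fin n) : Cm n →L[ℝ] ℝ :=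
  Complex.imCLM.comp (ContinuousLinearMap.proj (R := ℝ) (φ := fun _ : Fin n => ℂ) j)

/-- the Euclidean scalar product -/
def B0 (n : ℕ) : Cm n →L[ℝ] Cm n →L[ℝ] ℝ :=
  ∑ j, ((rj j).smulRight (rj j) + (ij j).smulRight (ij j))

theorem B0_self (z : Cm n) : B0 n z z = ∑ j, ‖z j‖ ^ 2 := by
  simp only [B0, sum_apply, add_apply,
    ContinuousLinearMap.smulRight_apply, smul_apply, smul_eq_mul]
  refine Finset.sum_congr rfl fun j _ => ?_
  rw [← Complex.normSq_eq_norm_sq, Complex.normSq_apply]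
  rfl

theorem norm_sq_le_B0 (z : Cm n) : ‖z‖ ^ 2 ≤ B0 n z z := by
  have h0 : 0 ≤ B0 n z z := by
    rw [B0_self]
    positivity
  have h1 : ‖z‖ ≤ Real.sqrt (B0 n z z) := by
    refine (pi_norm_le_iff_of_nonneg (Real.sqrt_nonneg _)).2 fun j => ?_
    refine Real.le_sqrt_of_sq_le ?_
    rw [B0_self]
    exact Finset.single_le_sum (f := fun j => ‖z j‖ ^ 2) (fun i _ => by positivity)
      (Finset.mem_univ j)
  calc ‖z‖ ^ 2 ≤ Real.sqrt (B0 n z z) ^ 2 := by gcongr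
    _ = B0 n z z := Real.sq_sqrt h0

theorem hasFDerivAt_B0 (p z : Cm n) : HasFDerivAt (fun z => B0 n (z - p) (z - p))
    (B0 n (z - p) + (B0 n).flip (z - p)) z := by
  have h1 : HasFDerivAt (fun z : Cm n => z - p) (ContinuousLinearMap.id ℝ (Cm n)) z :=
    (hasFDerivAt_id z).sub_const p
  have h2 := (B0 n).hasFDerivAt_of_bilinear h1 h1
  refine h2.congr_fderiv ?_
  ext v
  simp

theorem fderiv2_B0 (p z : Cm n) :
    fderiv ℝ (fderiv ℝ (fun z => B0 n (z - p) (z - p))) z = B0 n + (B0 n).flip := by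
  have h1 : fderiv ℝ (fun z => B0 n (z - p) (z - p)) = fun z => (B0 n + (B0 n).flip) (z - p) := by
    funext z
    rw [(hasFDerivAt_B0 p z).fderiv]
    rfl
  rw [h1]
  have h2 : HasFDerivAt (fun z : Cm n => z - p) (ContinuousLinearMap.id ℝ (Cm n)) z :=
    (hasFDerivAt_id z).sub_const p
  have h3 := ((B0 n + (B0 n).flip).hasFDerivAt (x := z - p)).comp z h2
  rw [ContinuousLinearMap.comp_id] at h3
  exact h3.fderiv

theorem contDiff_B0 (p : Cm n) : ContDiff ℝ 2 (fun z => B0 n (z - p) (z - p)) := by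
  have h1 : ContDiff ℝ 2 (fun z : Cm n => z - p) := contDiff_id.sub contDiff_const
  exact ((B0 n).contDiff.comp h1).clm_apply h1

end sq

variable {n : ℕ} {Γ : Type} [Group Γ] {C : Coc n Γ} {α : ℝ}

/-! ### The sup norm -/

/-- the sup norm on `HA` as a seminorm -/
def supS (C : Coc n Γ) (α : ℝ) : Seminorm ℝ (HA C α) :=
  Seminorm.ofSMulLE (fun f => Hol.N0 (f : Hol (wt C α) ℝ))
    (le_antisymm (Hol.N0_le le_rfl fun x => by simp) (Hol.N0_nonneg _))
    (fun f g => Hol.N0_le (add_nonneg (Hol.N0_nonneg _) (Hol.N0_nonneg _)) fun x =>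
      (norm_add_le _ _).trans (add_le_add (Hol.le_N0 _ x) (Hol.le_N0 _ x)))
    (fun c f => Hol.N0_le (mul_nonneg (norm_nonneg _) (Hol.N0_nonneg _)) fun x => by
      show ‖c • (f : Hol (wt C α) ℝ) x‖ ≤ _
      rw [norm_smul]
      exact mul_le_mul_of_nonneg_left (Hol.le_N0 _ x) (norm_nonneg _))

theorem supS_apply (f : HA C α) : supS C α f = Hol.N0 (f : Hol (wt C α) ℝ) := rfl

theorem supS_le (f : HA C α) : supS C α f ≤ 1 * ‖f‖ := by
  rw [supS_apply, one_mul]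
  exact Hol.N0_le_norm _

/-! ### Interpolation -/

theorem norm_fderiv_fn (v : C2A C α) (p : Pt C) : ‖fderiv ℝ (fn v p.γ p.a) p.z‖ ≤ ‖v‖ := by
  have h1 : ‖jt C α v p‖ ≤ ‖v‖ := by
    refine (Hol.norm_apply_le _ p).trans ?_
    show ‖v.1.2‖ ≤ ‖v.1‖
    exact norm_snd_le _
  rw [jt_apply] at h1
  exact (norm_fst_le _).trans ((norm_snd_le _).trans h1)

theorem lip (v : C2A C α) (γ : Γ) (a : C.I) {z z' : Cm n} (hz : z ∈ C.V a) (hz' : z' ∈ C.V a) :
    |fn v γ a z - fn v γ a z'| ≤ ‖v‖ * ‖z - z'‖ := by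
  have hc : Convex ℝ (C.V a) := convex_ball _ _
  exact hc.norm_image_sub_le_of_norm_fderiv_le (𝕜 := ℝ) (f := fn v γ a)
    (fun x hx => (fn_contDiffAt v ⟨γ, a, x, hx⟩).differentiableAt (by norm_num))
    (fun x hx => norm_fderiv_fn v ⟨γ, a, x, hx⟩) hz' hz

theorem interp (h0 : 0 < α) (h1 : α < 1) (ε : ℝ) (hε : 0 < ε) :
    ∃ c : ℝ, ∀ v : C2A C α, ‖inc C α v‖ ≤ ε * ‖v‖ + c * supS C α (inc C α v) := by
  have h1' : 0 < 1 - α := by linarith
  obtain ⟨ρ, hρ0, hρ⟩ : ∃ ρ : ℝ, 0 < ρ ∧ ρ ^ (1 - α) ≤ ε := by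
    refine ⟨ε ^ (1 / (1 - α)), by positivity, ?_⟩
    rw [← Real.rpow_mul (by positivity), one_div_mul_cancel h1'.ne', Real.rpow_one]
  refine ⟨1 + (2 * ρ ^ (-α) + 2), fun v => ?_⟩
  rw [supS_apply]
  set N := Hol.N0 (inc C α v : Hol (wt C α) ℝ) with hN
  have hN0 : 0 ≤ N := Hol.N0_nonneg _
  have hv0 : 0 ≤ ‖v‖ := norm_nonneg _
  have hρp : 0 ≤ ρ ^ (-α) := by positivity
  have htwo : ∀ p q : Pt C, ‖(inc C α v : Hol (wt C α) ℝ) p - (inc C α v : Hol (wt C α) ℝ) q‖ ≤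
      2 * N := fun p q =>
    calc _ ≤ ‖(inc C α v : Hol (wt C α) ℝ) p‖ + ‖(inc C α v : Hol (wt C α) ℝ) q‖ :=
          norm_sub_le _ _
      _ ≤ N + N := add_le_add (Hol.le_N0 _ p) (Hol.le_N0 _ q)
      _ = 2 * N := by ring
  have hN1 : Hol.N1 (inc C α v : Hol (wt C α) ℝ) ≤ ε * ‖v‖ + (2 * ρ ^ (-α) + 2) * N := by
    refine Hol.N1_le (by positivity) fun p q => ?_
    by_cases hpq : p.γ = q.γ ∧ p.a = q.a
    · have hw : ((wt C α p q : ℝ≥0) : ℝ) = ‖p.z - q.z‖ ^ α := by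
        rw [wt, if_pos hpq, NNReal.coe_rpow, coe_nnnorm]
      rw [hw]
      set d := ‖p.z - q.z‖ with hd
      have hd0 : 0 ≤ d := norm_nonneg _
      have hw0 : 0 ≤ d ^ α := Real.rpow_nonneg hd0 _
      rcases le_or_gt d ρ with hdρ | hdρ
      · have h2 : d ≤ ρ ^ (1 - α) * d ^ α := by
          rcases hd0.eq_or_lt with h | h
          · rw [← h, Real.zero_rpow h0.ne', mul_zero]
          · calc d = d ^ (1 - α) * d ^ α := by
                  rw [← Real.rpow_add h]; simp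
              _ ≤ ρ ^ (1 - α) * d ^ α := by gcongr
        have h3 : ‖(inc C α v : Hol (wt C α) ℝ) p - (inc C α v : Hol (wt C α) ℝ) q‖ ≤
            ‖v‖ * d := by
          rw [inc_apply, inc_apply, Real.norm_eq_abs]
          obtain ⟨γ, a, z, hz⟩ := p
          obtain ⟨γ', a', z', hz'⟩ := q
          obtain ⟨h5, h6⟩ := hpq
          simp only at h5 h6
          subst h5
          subst h6
          exact lip v γ a hz hz'
        calc _ ≤ ‖v‖ * d := h3
          _ ≤ ‖v‖ * (ρ ^ (1 - α) * d ^ α) := by gcongr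
          _ ≤ ‖v‖ * (ε * d ^ α) := by gcongr
          _ = ε * ‖v‖ * d ^ α := by ring
          _ ≤ (ε * ‖v‖ + (2 * ρ ^ (-α) + 2) * N) * d ^ α := by
              gcongr
              have : 0 ≤ (2 * ρ ^ (-α) + 2) * N := by positivity
              linarith
      · have h2 : 1 ≤ ρ ^ (-α) * d ^ α := by
          rw [Real.rpow_neg hρ0.le, inv_mul_eq_div, one_le_div (by positivity)]
          gcongr
        calc _ ≤ 2 * N * 1 := by rw [mul_one]; exact htwo p q
          _ ≤ 2 * N * (ρ ^ (-α) * d ^ α) := by gcongr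
          _ = (2 * ρ ^ (-α) * N) * d ^ α := by ring
          _ ≤ (ε * ‖v‖ + (2 * ρ ^ (-α) + 2) * N) * d ^ α := by
              gcongr
              have : 0 ≤ ε * ‖v‖ := by positivity
              nlinarith
    · have hw : ((wt C α p q : ℝ≥0) : ℝ) = 1 := by
        rw [wt, if_neg hpq, NNReal.coe_one]
      rw [hw, mul_one]
      refine (htwo p q).trans ?_
      have h5 : 0 ≤ ε * ‖v‖ := by positivity
      have h6 : 0 ≤ ρ ^ (-α) * N := by positivity
      nlinarith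
  have h7 : ‖inc C α v‖ = N + Hol.N1 (inc C α v : Hol (wt C α) ℝ) := rfl
  rw [h7]
  calc N + _ ≤ N + (ε * ‖v‖ + (2 * ρ ^ (-α) + 2) * N) := by gcongr
    _ = ε * ‖v‖ + (1 + (2 * ρ ^ (-α) + 2)) * N := by ring

/-! ### Maximum principle -/

/-- approximate maximum with almost nonpositive second derivative, in one ball -/
theorem bump {f : Cm n → ℝ} {z₀ : Cm n} {r ε S : ℝ} (hr : 0 < r) (hε : 0 < ε)
    (hf : ∀ z ∈ closedBall z₀ r, ContDiffAt ℝ 2 f z) (hS : ∀ z ∈ closedBall z₀ r, f z ≤ S)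
    (h0 : S - ε < f z₀) : ∃ z₁ ∈ closedBall z₀ r, S - ε ≤ f z₁ ∧
    ∀ a : Bil n →L[ℝ] ℝ, (∀ ξ : Cm n →L[ℝ] ℝ, 0 ≤ a (ξ.smulRight ξ)) →
      a (fderiv ℝ (fderiv ℝ f) z₁) ≤ 2 * ε / r ^ 2 * (‖a‖ * ‖B0 n + (B0 n).flip‖) := by
  set s : ℝ := 2 * ε / r ^ 2 with hs
  have hs0 : 0 ≤ s := by positivity
  set g : Cm n → ℝ := fun z => f z - s * B0 n (z - z₀) (z - z₀) with hg
  have hsc : ContDiff ℝ 2 (fun z => s * B0 n (z - z₀) (z - z₀)) :=
    contDiff_const.mul (contDiff_B0 z₀)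
  have hgc : ContinuousOn g (closedBall z₀ r) := fun z hz =>
    ((hf z hz).continuousAt.sub hsc.continuous.continuousAt).continuousWithinAt
  obtain ⟨z₁, hz₁, hmax⟩ := (isCompact_closedBall z₀ r).exists_isMaxOn
    ⟨z₀, mem_closedBall_self hr.le⟩ hgc
  have hg0 : g z₀ = f z₀ := by
    simp only [hg, sub_self, map_zero, mul_zero, sub_zero]
  have hg1 : g z₀ ≤ g z₁ := hmax (mem_closedBall_self hr.le)
  have hnn : 0 ≤ B0 n (z₁ - z₀) (z₁ - z₀) := (sq_nonneg _).trans (norm_sq_le_B0 _)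
  have hint : z₁ ∈ ball z₀ r := by
    by_contra hcon
    have h6 : r ≤ ‖z₁ - z₀‖ := by
      rw [mem_ball, not_lt, dist_eq_norm] at hcon
      exact hcon
    have h7 : r ^ 2 ≤ B0 n (z₁ - z₀) (z₁ - z₀) :=
      le_trans (by gcongr) (norm_sq_le_B0 _)
    have h8 : 2 * ε ≤ s * B0 n (z₁ - z₀) (z₁ - z₀) := by
      calc 2 * ε = s * r ^ 2 := by rw [hs]; field_simp
        _ ≤ _ := by gcongr
    have h9 : g z₁ ≤ S - 2 * ε := by
      have := hS z₁ hz₁
      simp only [hg]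
      linarith
    linarith
  have hloc : IsLocalMax g z₁ := by
    filter_upwards [isOpen_ball.mem_nhds hint] with z hz
    exact hmax (ball_subset_closedBall hz)
  have hgcd : ContDiffAt ℝ 2 g z₁ := (hf z₁ hz₁).sub hsc.contDiffAt
  refine ⟨z₁, hz₁, ?_, fun a ha => ?_⟩
  · have h17 : g z₁ ≤ f z₁ := by
      simp only [hg]
      have : 0 ≤ s * B0 n (z₁ - z₀) (z₁ - z₀) := by positivity
      linarith
    linarith
  · have hop := Vale.Agent.P272.K.MP.op_nonpos_of_max a ha 0 hloc hgcd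
    rw [zero_apply, add_zero] at hop
    have hD : fderiv ℝ (fderiv ℝ g) z₁ = fderiv ℝ (fderiv ℝ f) z₁ -
        s • (B0 n + (B0 n).flip) := by
      have hev : ∀ᶠ z in 𝓝 z₁, DifferentiableAt ℝ f z := by
        filter_upwards [isOpen_ball.mem_nhds hint] with z hz
        exact (hf z (ball_subset_closedBall hz)).differentiableAt (by norm_num)
      have e1 : fderiv ℝ g =ᶠ[𝓝 z₁] fun z => fderiv ℝ f z -
          s • fderiv ℝ (fun z => B0 n (z - z₀) (z - z₀)) z := by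
        filter_upwards [hev] with z d1
        have d2 := ((contDiff_B0 (n := n) z₀).contDiffAt (x := z)).differentiableAt (by norm_num)
        have h10 : HasFDerivAt g (fderiv ℝ f z -
            s • fderiv ℝ (fun z => B0 n (z - z₀) (z - z₀)) z) z :=
          d1.hasFDerivAt.sub (d2.hasFDerivAt.const_smul s)
        exact h10.fderiv
      rw [e1.fderiv_eq]
      have d3 : DifferentiableAt ℝ (fderiv ℝ f) z₁ :=
        ((hf z₁ hz₁).fderiv_right (m := 1) (by norm_num)).differentiableAt (by norm_num)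
      have d4 : DifferentiableAt ℝ (fderiv ℝ (fun z => B0 n (z - z₀) (z - z₀))) z₁ :=
        (((contDiff_B0 (n := n) z₀).contDiffAt (x := z₁)).fderiv_right (m := 1)
          (by norm_num)).differentiableAt (by norm_num)
      have h11 := d3.hasFDerivAt.sub (d4.hasFDerivAt.const_smul s)
      rw [fderiv2_B0] at h11
      exact h11.fderiv
    rw [hD, map_sub, map_smul, smul_eq_mul] at hop
    have hB : a (B0 n + (B0 n).flip) ≤ ‖a‖ * ‖B0 n + (B0 n).flip‖ :=
      (le_abs_self _).trans (a.le_opNorm _)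
    have h12 : s * a (B0 n + (B0 n).flip) ≤ s * (‖a‖ * ‖B0 n + (B0 n).flip‖) := by gcongr
    linarith

/-- move a point of the covering to a small ball -/
theorem move (p : Pt C) : ∃ (γ : Γ) (b : C.I) (z : Cm n) (hz : z ∈ C.V b),
    closedBall z (C.r b) ⊆ C.V b ∧ Same C p ⟨γ, b, z, hz⟩ := by
  have hΩ : p.z ∈ ball (C.c p.a) (4 * C.r p.a) :=
    ball_subset_ball (by have := C.r_pos p.a; linarith) p.mem
  obtain ⟨b, hO, hW⟩ := C.cover p.a p.z hΩ
  have hr := C.r_pos b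
  refine ⟨p.γ * C.κ p.a b p.z, b, C.T p.a b p.z, ball_subset_ball (by linarith) hW, ?_,
    ⟨hO, rfl, rfl⟩⟩
  intro z hz
  have h3 : dist z (C.c b) ≤ dist z (C.T p.a b p.z) + dist (C.T p.a b p.z) (C.c b) :=
    dist_triangle _ _ _
  have h4 : dist z (C.T p.a b p.z) ≤ C.r b := hz
  have h5 : dist (C.T p.a b p.z) (C.c b) < C.r b := hW
  show dist z (C.c b) < 3 * C.r b
  linarith

/-- **Omori-Yau** for elements of `C^{2,α}` on the covering: at some point `v` is within `ε` of its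
supremum and every positive functional `a` has `a (D²v) ≤ B ε ‖a‖`. -/
theorem omori (C : Coc n Γ) : ∃ B : ℝ, 0 ≤ B ∧ ∀ (v : C2A C α) (S : ℝ),
    (∀ p : Pt C, (inc C α v : Hol (wt C α) ℝ) p ≤ S) → ∀ ε : ℝ, 0 < ε →
    ∀ p₁ : Pt C, S - ε < (inc C α v : Hol (wt C α) ℝ) p₁ → ∃ q : Pt C,
      S - ε ≤ (inc C α v : Hol (wt C α) ℝ) q ∧
      ∀ a : Bil n →L[ℝ] ℝ, (∀ ξ : Cm n →L[ℝ] ℝ, 0 ≤ a (ξ.smulRight ξ)) →
        a (J2 C α v q) ≤ B * ε * ‖a‖ := by
  refine ⟨∑ b, 2 * ‖B0 n + (B0 n).flip‖ / C.r b ^ 2,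
    Finset.sum_nonneg fun i _ => by positivity, fun v S hS ε hε p₁ hp₁ => ?_⟩
  obtain ⟨γ, b, z₀, hz₀, hsub, hsame⟩ := move p₁
  have hr := C.r_pos b
  have hv₀ : fn v γ b z₀ = (inc C α v : Hol (wt C α) ℝ) p₁ := by
    rw [(inc C α v).2 _ _ hsame]
    exact (inc_apply v ⟨γ, b, z₀, hz₀⟩).symm
  obtain ⟨z₁, hz₁, h1, h2⟩ := bump (f := fn v γ b) (z₀ := z₀) (S := S) hr hε
    (fun z hz => fn_contDiffAt v ⟨γ, b, z, hsub hz⟩)
    (fun z hz => by
      have := hS ⟨γ, b, z, hsub hz⟩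
      rwa [inc_apply] at this)
    (by rw [hv₀]; exact hp₁)
  refine ⟨⟨γ, b, z₁, hsub hz₁⟩, by rw [inc_apply]; exact h1, fun a ha => ?_⟩
  rw [J2_apply]
  refine (h2 a ha).trans ?_
  have h3 : 2 * ‖B0 n + (B0 n).flip‖ / C.r b ^ 2 ≤ ∑ b, 2 * ‖B0 n + (B0 n).flip‖ / C.r b ^ 2 :=
    Finset.single_le_sum (f := fun b => 2 * ‖B0 n + (B0 n).flip‖ / C.r b ^ 2)
      (fun i _ => by positivity) (Finset.mem_univ b)
  calc 2 * ε / C.r b ^ 2 * (‖a‖ * ‖B0 n + (B0 n).flip‖)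
      = (2 * ‖B0 n + (B0 n).flip‖ / C.r b ^ 2) * ε * ‖a‖ := by ring
    _ ≤ _ := by gcongr

theorem upper {L : C2A C α →L[ℝ] HA C α} {a : Hol (wt C α) (Bil n →L[ℝ] ℝ)} (h : Ell C α L a)
    (l : ℝ) (hl : 0 < l) (v : C2A C α) (M : ℝ)
    (hM : ∀ p : Pt C, l * (inc C α v : Hol (wt C α) ℝ) p - (L v : Hol (wt C α) ℝ) p ≤ M)
    (p : Pt C) : l * (inc C α v : Hol (wt C α) ℝ) p ≤ M := by
  have : Nonempty (Pt C) := ⟨p⟩
  obtain ⟨B, hB0, hB⟩ := omori (α := α) C
  have hbdd : BddAbove (range fun q => (inc C α v : Hol (wt C α) ℝ) q) := by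
    refine ⟨Hol.N0 (inc C α v : Hol (wt C α) ℝ), ?_⟩
    rintro _ ⟨q, rfl⟩
    exact (le_abs_self _).trans (Hol.le_N0 (inc C α v : Hol (wt C α) ℝ) q)
  set S := ⨆ q, (inc C α v : Hol (wt C α) ℝ) q with hS
  have huS : ∀ q, (inc C α v : Hol (wt C α) ℝ) q ≤ S := fun q => le_ciSup hbdd q
  obtain ⟨c, hc, hpos⟩ := h.pos
  have hfin : l * S ≤ M := by
    have hKn : 0 < l + B * ‖a‖ := by
      have : 0 ≤ B * ‖a‖ := by positivity
      linarith
    refine le_of_forall_pos_le_add fun δ hδ => ?_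
    set ε := δ / (l + B * ‖a‖) with hεd
    have hε : 0 < ε := by positivity
    obtain ⟨p₁, hp₁⟩ := exists_lt_of_lt_ciSup
      (show S - ε < ⨆ q, (inc C α v : Hol (wt C α) ℝ) q by rw [← hS]; linarith)
    obtain ⟨q, h1, h2⟩ := hB v S huS ε hε p₁ hp₁
    have h3 := h2 (a q) fun ξ => le_trans (by positivity) (hpos q ξ)
    have h4 : B * ε * ‖a q‖ ≤ B * ε * ‖a‖ := by
      have := Hol.norm_apply_le a q
      gcongr
    have h5 := hM q
    rw [h.eq v q] at h5
    have h6 : l * (S - ε) ≤ l * (inc C α v : Hol (wt C α) ℝ) q :=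
      mul_le_mul_of_nonneg_left h1 hl.le
    have h7 : (l + B * ‖a‖) * ε = δ := by rw [hεd, mul_div_cancel₀ _ hKn.ne']
    linarith [h7, h6, h5, h4, h3, mul_sub l S ε, add_mul l (B * ‖a‖) ε, mul_right_comm B ε ‖a‖]
  exact (mul_le_mul_of_nonneg_left (huS p) hl.le).trans hfin

theorem max_principle {L : C2A C α →L[ℝ] HA C α} {a : Hol (wt C α) (Bil n →L[ℝ] ℝ)}
    (h : Ell C α L a) (l : ℝ) (hl : 0 < l) (v : C2A C α) :
    l * supS C α (inc C α v) ≤ supS C α (l • inc C α v - L v) := by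
  rw [supS_apply, supS_apply]
  set M := Hol.N0 ((l • inc C α v - L v : HA C α) : Hol (wt C α) ℝ) with hM
  have hM0 : 0 ≤ M := Hol.N0_nonneg _
  have hb : ∀ p : Pt C, |l * (inc C α v : Hol (wt C α) ℝ) p - (L v : Hol (wt C α) ℝ) p| ≤ M :=
    fun p => Hol.le_N0 ((l • inc C α v - L v : HA C α) : Hol (wt C α) ℝ) p
  have h1 := upper h l hl v M fun p => (le_abs_self _).trans (hb p)
  have h2 := upper h l hl (-v) M fun p => by
    rw [map_neg, map_neg]
    show l * -((inc C α v : Hol (wt C α) ℝ) p) - -((L v : Hol (wt C α) ℝ) p) ≤ M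
    have := (neg_le_abs _).trans (hb p)
    linarith
  have h3 : Hol.N0 (inc C α v : Hol (wt C α) ℝ) ≤ M / l := by
    refine Hol.N0_le (by positivity) fun p => ?_
    have h4 : l * -((inc C α v : Hol (wt C α) ℝ) p) ≤ M := by
      have := h2 p
      rw [map_neg] at this
      exact this
    rw [Real.norm_eq_abs, abs_le']
    refine ⟨?_, ?_⟩
    · rw [le_div_iff₀ hl, mul_comm]
      exact h1 p
    · rw [le_div_iff₀ hl, mul_comm]
      exact h4
  rw [le_div_iff₀ hl] at h3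
  linarith

theorem injective {L : C2A C α →L[ℝ] HA C α} {a : Hol (wt C α) (Bil n →L[ℝ] ℝ)}
    (h : Ell C α L a) (l : ℝ) (hl : 0 < l) :
    Function.Injective (fun v => l • inc C α v - L v) := by
  intro u v huv
  have h1 : l • inc C α (u - v) - L (u - v) = 0 := by
    have h2 : l • inc C α u - L u = l • inc C α v - L v := huv
    rw [map_sub, map_sub, smul_sub]
    have h3 : l • inc C α u - l • inc C α v - (L u - L v) =
        (l • inc C α u - L u) - (l • inc C α v - L v) := by abel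
    rw [h3, h2, sub_self]
  have h2 := max_principle h l hl (u - v)
  rw [h1, map_zero, supS_apply] at h2
  have h4 : Hol.N0 (inc C α (u - v) : Hol (wt C α) ℝ) ≤ 0 := by
    by_contra h5
    push Not at h5
    nlinarith [mul_pos hl h5]
  have h0 : ∀ p : Pt C, u.1.1 p = v.1.1 p := fun p => by
    have h3 : ‖(inc C α (u - v) : Hol (wt C α) ℝ) p‖ ≤ 0 := (Hol.le_N0 _ p).trans h4
    have h5 : (inc C α (u - v) : Hol (wt C α) ℝ) p = 0 := norm_le_zero_iff.1 h3
    have h6 : u.1.1 p - v.1.1 p = 0 := h5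
    linarith
  refine Subtype.ext (Prod.ext (Hol.ext h0) (Hol.ext fun p => ?_))
  have hf : (u.1.1 : Pt C → ℝ) = v.1.1 := funext h0
  rw [(u.2.2 p).2, (v.2.2 p).2, hf]

/-- **L3**: if `Λ - L` is onto for one `Λ > 0`, then `l - L` is bijective for all `l > 0`. -/
theorem bijective [CompleteSpace (HA C α)] [CompleteSpace (C2A C α)] (h0 : 0 < α) (h1 : α < 1)
    {L : C2A C α →L[ℝ] HA C α} {a : Hol (wt C α) (Bil n →L[ℝ] ℝ)} (h : Ell C α L a)
    (Λ : ℝ) (hΛ : 0 < Λ) (hs : Function.Surjective (fun v => Λ • inc C α v - L v))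
    (l : ℝ) (hl : 0 < l) : Function.Bijective (fun v => l • inc C α v - L v) :=
  Vale.Agent.P272.K.MP.descent (inc C α) L (supS C α) 1 supS_le (fun ε hε => interp h0 h1 ε hε)
    (fun l hl v => max_principle h l hl v) Λ hΛ ⟨injective h Λ hΛ, hs⟩ l hl

end Vale.Agent.P284.H913.CY
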